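import Vale.Agent.P237.Quant.TailData.N28.tailN28N0Part0
import Vale.Agent.P237.Quant.TailData.N28.tailN28N0Part1
import Vale.Agent.P237.Quant.TailData.N28.tailN28N0Part2

/-!
Tail calibration tailN28N0 in dimension 28. The check. Generated data, checked by the kernel.
-/

set_option maxRecDepth 100000
set_option linter.all false

namespace Vale.Agent.P237.Quant.TailData

open TailCert


/-- The calibration. -/
noncomputable def tailN28N0 : Cfg :=
  tailN28N0Base.withIvals (List.flatten [tailN28N0L0, tailN28N0L1, tailN28N0L2, tailN28N0L3, tailN28N0L4, tailN28N0L5, tailN28N0L6, tailN28N0L7, tailN28N0L8, tailN28N0L9, tailN28N0L10])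

theorem tailN28N0_parts : [tailN28N0L0, tailN28N0L1, tailN28N0L2, tailN28N0L3, tailN28N0L4, tailN28N0L5, tailN28N0L6, tailN28N0L7, tailN28N0L8, tailN28N0L9, tailN28N0L10].Forall fun l => tailN28N0Base.partUsed tailN28N0Used l = true := by
  simp only [List.forall_cons, List.Forall]
  exact ⟨tailN28N0L0_ok, tailN28N0L1_ok, tailN28N0L2_ok, tailN28N0L3_ok, tailN28N0L4_ok, tailN28N0L5_ok, tailN28N0L6_ok, tailN28N0L7_ok, tailN28N0L8_ok, tailN28N0L9_ok, tailN28N0L10_ok⟩

theorem tailN28N0_check : tailN28N0.check = true :=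
  Cfg.check_of_parts (by decide +kernel) tailN28N0_parts

end Vale.Agent.P237.Quant.TailData
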