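import Vale.Agent.P237.Quant.TailData.N28.tailN28P0Part0
import Vale.Agent.P237.Quant.TailData.N28.tailN28P0Part1
import Vale.Agent.P237.Quant.TailData.N28.tailN28P0Part2
import Vale.Agent.P237.Quant.TailData.N28.tailN28P0Part3

/-!
Tail calibration tailN28P0 in dimension 28. The check. Generated data, checked by the kernel.
-/

set_option maxRecDepth 100000
set_option linter.all false

namespace Vale.Agent.P237.Quant.TailData

open TailCert


/-- The calibration. -/
noncomputable def tailN28P0 : Cfg :=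
  tailN28P0Base.withIvals (List.flatten [tailN28P0L0, tailN28P0L1, tailN28P0L2, tailN28P0L3, tailN28P0L4, tailN28P0L5, tailN28P0L6, tailN28P0L7, tailN28P0L8, tailN28P0L9, tailN28P0L10, tailN28P0L11, tailN28P0L12, tailN28P0L13])

theorem tailN28P0_parts : [tailN28P0L0, tailN28P0L1, tailN28P0L2, tailN28P0L3, tailN28P0L4, tailN28P0L5, tailN28P0L6, tailN28P0L7, tailN28P0L8, tailN28P0L9, tailN28P0L10, tailN28P0L11, tailN28P0L12, tailN28P0L13].Forall fun l => tailN28P0Base.partUsed tailN28P0Used l = true := by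
  simp only [List.forall_cons, List.Forall]
  exact ⟨tailN28P0L0_ok, tailN28P0L1_ok, tailN28P0L2_ok, tailN28P0L3_ok, tailN28P0L4_ok, tailN28P0L5_ok, tailN28P0L6_ok, tailN28P0L7_ok, tailN28P0L8_ok, tailN28P0L9_ok, tailN28P0L10_ok, tailN28P0L11_ok, tailN28P0L12_ok, tailN28P0L13_ok⟩

theorem tailN28P0_check : tailN28P0.check = true :=
  Cfg.check_of_parts (by decide +kernel) tailN28P0_parts

end Vale.Agent.P237.Quant.TailData
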