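import Vale.Agent.P237.Quant.TailPartsLink
import Vale.Agent.P237.Quant.RowTables
import Vale.Agent.P237.Quant.EnvelopeTableData.N26
import Vale.Agent.P237.Quant.TailData.N28.tailN28P0
import Vale.Agent.P237.Quant.TailData.N28.tailN28P1
import Vale.Agent.P237.Quant.TailData.N28.tailN28P2
import Vale.Agent.P237.Quant.TailData.N28.tailN28P3
import Vale.Agent.P237.Quant.TailData.N28.tailN28N0
import Vale.Agent.P237.Quant.TailData.N28.tailN28N1

/-!
The tail inequalities of the rows of both sides in dimension 28. Generated.
-/

namespace Vale.Agent.P237.Quant

open TailCert TailData

/-- The tail inequalities of `negRow14` in dimension 28. -/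
theorem negRow14_tailAt28 : negRow14.TailAt 27 := by
  intro P hP
  simp only [negRow14, binsOf, List.mem_cons, List.not_mem_nil, or_false] at hP
  rcases hP with rfl | rfl
  · exact tailBin_negParts tailN28N0_check tailN28N0_parts envTable28_check (by decide +kernel)
  · exact tailBin_negParts tailN28N1_check tailN28N1_parts envTable28_check (by decide +kernel)

/-- The tail inequalities of `posRow25` in dimension 28. -/
theorem posRow25_tailAt28 : posRow25.TailAt 27 := by
  intro P hP
  simp only [posRow25, posRowA, posCuts14, posCuts16, binsOf, List.mem_cons, List.not_mem_nil, or_false] at hP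
  rcases hP with rfl | rfl | rfl | rfl
  · exact tailBin_posParts tailN28P0_check tailN28P0_parts envTable28_check (by decide +kernel)
  · exact tailBin_posParts tailN28P1_check tailN28P1_parts envTable28_check (by decide +kernel)
  · exact tailBin_posParts tailN28P2_check tailN28P2_parts envTable28_check (by decide +kernel)
  · exact tailBin_posParts tailN28P3_check tailN28P3_parts envTable28_check (by decide +kernel)

end Vale.Agent.P237.Quant
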